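import Vale.Agent.P150.Fast.ThreeB.Core

/-!
P150 (3b): the rational cells and a rational checker, run in the kernel by `decide +kernel`.
-/

open Finset

namespace Vale.Agent.P150.Fast.ThreeB

/-- Coefficients of `e4 (c u + u² / 2)`, rationally. -/
def eCQ (c : ℚ) : ℕ → ℚ
  | 0 => 1
  | 1 => -c
  | 2 => -1 / 2 + c ^ 2 / 2
  | 3 => c / 2 - c ^ 3 / 6
  | 4 => 1 / 8 - c ^ 2 / 4 + c ^ 4 / 24
  | 5 => -c / 8 + c ^ 3 / 12
  | 6 => -1 / 48 + c ^ 2 / 16
  | 7 => c / 48
  | 8 => 1 / 384
  | _ => 0

theorem eCQ_cast (c : ℚ) (i : ℕ) : ((eCQ c i : ℚ) : ℝ) = eC c i := by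
  match i with
  | 0 | 1 | 2 | 3 | 4 | 5 | 6 | 7 | 8 => simp [eCQ, eC]
  | _ + 9 => simp [eCQ, eC]

/-- `∫₀ʰ uʳ e4`, rationally. -/
def eIntQ (c h : ℚ) (r : ℕ) : ℚ := ∑ i ∈ range 9, eCQ c i * (h ^ (i + r + 1) / (i + r + 1))

theorem eIntQ_cast (c h : ℚ) (r : ℕ) : ((eIntQ c h r : ℚ) : ℝ) = eInt c h r := by
  simp [eIntQ, eInt, eCQ_cast]

/-- A cell with rational entries. -/
structure QCell where
  c : ℚ
  d : ℚ
  K : ℚ
  s0 : ℚ
  s1 : ℚ
  s2 : ℚ

/-- The real cell. -/
noncomputable def QCell.toCell (C : QCell) : Cell := ⟨C.c, C.d, C.K, C.s0, C.s1, C.s2⟩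

/-- The check on a cell. -/
def QCell.check (C : QCell) : Bool :=
  decide (0 ≤ C.c) && decide (C.c ≤ C.d) && decide (0 < C.K) &&
    decide (1 ≤ C.K * (25066279 / 10000000) *
      ∑ i ∈ range 40, (C.c ^ 2 / 2) ^ i / (Nat.factorial i : ℚ)) &&
    decide (eIntQ C.c (C.d - C.c) 0 = C.s0) && decide (eIntQ C.c (C.d - C.c) 1 = C.s1) &&
    decide (eIntQ C.c (C.d - C.c) 2 = C.s2)

theorem sqrt_two_pi_ge : (25066279 / 10000000 : ℝ) ≤ Real.sqrt (2 * Real.pi) := by
  rw [Real.le_sqrt (by norm_num) (by positivity)]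
  have := Real.pi_gt_d6
  nlinarith

theorem dens_le {c K : ℝ} (N : ℕ) (hK : 0 < K)
    (h : 1 ≤ K * (25066279 / 10000000) * ∑ i ∈ range N, (c ^ 2 / 2) ^ i / i.factorial) :
    dens c ≤ K := by
  have h1 := Real.sum_le_exp_of_nonneg (show 0 ≤ c ^ 2 / 2 by positivity) N
  have h0 : (0 : ℝ) ≤ ∑ i ∈ range N, (c ^ 2 / 2) ^ i / i.factorial :=
    Finset.sum_nonneg fun i _ => by positivity
  have h2 : 1 ≤ K * Real.sqrt (2 * Real.pi) * Real.exp (c ^ 2 / 2) :=
    h.trans (mul_le_mul (mul_le_mul_of_nonneg_left sqrt_two_pi_ge hK.le) h1 h0 (by positivity))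
  unfold dens
  rw [Real.exp_neg, inv_eq_one_div, div_div, div_le_iff₀ (by positivity)]
  linarith

theorem QCell.valid {C : QCell} (h : C.check = true) : C.toCell.Valid := by
  simp only [QCell.check, Bool.and_eq_true, decide_eq_true_eq] at h
  obtain ⟨⟨⟨⟨⟨⟨h0, h1⟩, h2⟩, h3⟩, h4⟩, h5⟩, h6⟩ := h
  refine ⟨by simpa [QCell.toCell] using h0, by simpa [QCell.toCell] using h1, ?_, ?_, ?_, ?_⟩
  · refine dens_le 40 (by simpa [QCell.toCell] using h2) ?_
    have := (Rat.cast_le (K := ℝ)).2 h3
    simpa [QCell.toCell] using this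
  · have := congrArg (fun x : ℚ => (x : ℝ)) h4
    simpa [QCell.toCell, eIntQ_cast] using this
  · have := congrArg (fun x : ℚ => (x : ℝ)) h5
    simpa [QCell.toCell, eIntQ_cast] using this
  · have := congrArg (fun x : ℚ => (x : ℝ)) h6
    simpa [QCell.toCell, eIntQ_cast] using this

variable (k a b c : ℚ)

/-- `hP`, rationally. -/
def hPQ (t : ℚ) : ℚ := k * t ^ 2 + a * t ^ 4 + b * t ^ 6 + c * t ^ 8

/-- `gP`, rationally. -/
def gPQ (t : ℚ) : ℚ := k * t + 2 * a * t ^ 3 + 3 * b * t ^ 5 + 4 * c * t ^ 7

/-- `bP`, rationally. -/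
def bPQ (t : ℚ) : ℚ := k + 3 * a * t ^ 2 + 5 * b * t ^ 4 + 7 * c * t ^ 6

/-- `cellVal`, rationally. -/
def cellValQ (C : QCell) (t : ℚ) : ℚ :=
  let A0 := hPQ k a b c t - gPQ k a b c t ^ 2 / bPQ k a b c t
  let A1 := -2 * t + 2 * gPQ k a b c t / bPQ k a b c t
  let A2 := -1 / bPQ k a b c t
  2 * C.K * ((A0 + A1 * C.c + A2 * C.c ^ 2) * C.s0 + (A1 + 2 * A2 * C.c) * C.s1 + A2 * C.s2)

/-- `val`, rationally. -/
def valQ : List (QCell × ℚ) → ℚ → ℚ → ℚ
  | [], R, tR => (hPQ k a b c tR - 2 * R * tR - (R - gPQ k a b c tR) ^ 2 / bPQ k a b c tR) *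
      (213458046676875 / R ^ 28)
  | p :: l, R, tR => cellValQ k a b c p.1 p.2 + valQ l R tR

/-- `Good`, rationally, without the validity of cells. -/
def goodQ : List (QCell × ℚ) → ℚ → ℚ → ℚ → Bool
  | [], c0, R, tR =>
      decide (c0 = R) && decide (0 < R) && decide (0 ≤ tR) && decide (0 < bPQ k a b c tR)
  | p :: l, c0, R, tR => decide (p.1.c = c0) && decide (0 ≤ p.2) &&
      decide (0 < bPQ k a b c p.2) && goodQ l p.1.d R tR

variable {k a b c}

theorem bPQ_cast (t : ℚ) : ((bPQ k a b c t : ℚ) : ℝ) = bP k a b c t := by simp [bPQ, bP]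

theorem valQ_cast : ∀ (l : List (QCell × ℚ)) (R tR : ℚ),
    ((valQ k a b c l R tR : ℚ) : ℝ) =
      val k a b c (l.map fun p => (p.1.toCell, (p.2 : ℝ))) R tR
  | [], R, tR => by simp [valQ, val, qP, hPQ, gPQ, bPQ, hP, gP, bP]
  | p :: l, R, tR => by
    simp [valQ, val, valQ_cast l R tR, cellValQ, cellVal, QCell.toCell, hPQ, gPQ, bPQ, hP, gP, bP]

theorem goodQ_good : ∀ (l : List (QCell × ℚ)) (c0 R tR : ℚ), (∀ p ∈ l, p.1.check = true) →
    goodQ k a b c l c0 R tR = true →
      Good k a b c (l.map fun p => (p.1.toCell, (p.2 : ℝ))) c0 R tR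
  | [], c0, R, tR, _, h => by
    simp only [goodQ, Bool.and_eq_true, decide_eq_true_eq] at h
    obtain ⟨⟨⟨h1, h2⟩, h3⟩, h4⟩ := h
    simp only [List.map_nil, Good, h1, ← bPQ_cast, Rat.cast_pos, Rat.cast_nonneg]
    exact ⟨trivial, h2, h3, h4⟩
  | p :: l, c0, R, tR, hv, h => by
    simp only [goodQ, Bool.and_eq_true, decide_eq_true_eq] at h
    obtain ⟨⟨⟨h1, h2⟩, h3⟩, h4⟩ := h
    simp only [List.map_cons, Good, ← bPQ_cast, Rat.cast_pos, Rat.cast_nonneg]
    refine ⟨by simp [QCell.toCell, h1], QCell.valid (hv p (List.mem_cons_self ..)), ⟨h2, h3⟩, ?_⟩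
    exact goodQ_good l _ R tR (fun q hq => hv q (List.mem_cons_of_mem _ hq)) h4

/-- The cells. -/
def qcells : List QCell := [
  ⟨0, 1/10, 7978847/20000000,
    2415174040807/24192000000000, 191520799001/38400000000000,
    8843836258463/26611200000000000⟩,
  ⟨1/10, 1/5, 39695261/100000000,
    6007870823659/60480000000000, 11985712417673/2419200000000000,
    43888970159107/133056000000000000⟩,
  ⟨1/5, 3/10, 9776069/25000000,
    11956012083353/120960000000000, 11906212488463/2419200000000000,
    43561388678419/133056000000000000⟩,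
  ⟨3/10, 9/20, 9534697/25000000,
    335194101800337/2293760000000000, 996162536461581/91750400000000000,
    10904197195597059/10092544000000000000⟩,
  ⟨9/20, 3/5, 18026351/50000000,
    82871554438083/573440000000000, 981417518907291/91750400000000000,
    10722380896170891/10092544000000000000⟩,
  ⟨3/5, 3/4, 16661233/50000000,
    327833167717047/2293760000000000, 966918232425141/91750400000000000,
    10543799172981483/10092544000000000000⟩,
  ⟨3/4, 9/10, 7528437/25000000,
    32423404099269/229376000000000, 952660320511131/91750400000000000,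
    414735690853107/403701760000000000⟩,
  ⟨9/10, 21/20, 26608529/100000000,
    320687944513437/2293760000000000, 938639514841101/91750400000000000,
    10196101683623187/10092544000000000000⟩,
  ⟨21/20, 6/5, 11494109/50000000,
    39649250356179/286720000000000, 132121662181533/13107200000000000,
    10026870149396619/10092544000000000000⟩,
  ⟨6/5, 27/20, 19418609/100000000,
    313751358206787/2293760000000000, 911292589835541/91750400000000000,
    9860641655291451/10092544000000000000⟩,
  ⟨27/20, 3/2, 250599/1562500,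
    155179585213791/1146880000000000, 897958374750891/91750400000000000,
    9697361435066043/10092544000000000000⟩,
  ⟨3/2, 33/20, 6475881/50000000,
    61403323397973/458752000000000, 884845074411981/91750400000000000,
    1907395193918727/2018508800000000000⟩,
  ⟨33/20, 9/5, 5113247/50000000,
    75930723251913/573440000000000, 871948861393851/91750400000000000,
    9379432986862347/10092544000000000000⟩,
  ⟨9/5, 39/20, 3947509/50000000,
    300477211230927/2293760000000000, 859265996451381/91750400000000000,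
    9224681461975179/10092544000000000000⟩,
  ⟨39/20, 21/10, 372467/6250000,
    148639401022821/1146880000000000, 846792828519291/91750400000000000,
    9072671617150011/10092544000000000000⟩,
  ⟨21/10, 9/4, 4398361/100000000,
    294126913473717/2293760000000000, 119217970673163/13107200000000000,
    8923354921719603/10092544000000000000⟩,
  ⟨9/4, 12/5, 1586983/50000000,
    3637760139663/28672000000000, 822461420324331/91750400000000000,
    1755336818426319/2018508800000000000⟩,
  ⟨12/5, 51/20, 1119727/50000000,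
    287959778437467/2293760000000000, 810596318830101/91750400000000000,
    8632613091948507/10092544000000000000⟩,
  ⟨51/20, 27/10, 308987/20000000,
    142471558098411/1146880000000000, 798927191883531/91750400000000000,
    8491097131847739/10092544000000000000⟩,
  ⟨27/10, 57/20, 521047/50000000,
    281970143016897/2293760000000000, 787450829318541/91750400000000000,
    8352092669621571/10092544000000000000⟩,
  ⟨57/20, 3, 687277/100000000,
    69760048774863/573440000000000, 776164109148891/91750400000000000,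
    8215557410177163/10092544000000000000⟩,
  ⟨3, 63/20, 110796227/25000000000,
    55230525256443/458752000000000, 765063997568181/91750400000000000,
    1616290061107311/2018508800000000000⟩,
  ⟨63/20, 33/10, 69856471/25000000000,
    136653404019441/1146880000000000, 107735364135693/13107200000000000,
    7949731554836667/10092544000000000000⟩,
  ⟨33/10, 7/2, 4306423/2500000000,
    68810007211/472500000000, 20365080487/1575000000000,
    210759808031/129937500000000⟩,
  ⟨7/2, 37/10, 87268283/100000000000,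
    13521878669/94500000000, 8513552443/675000000000,
    8192400701/5197500000000⟩,
  ⟨37/10, 39/10, 21239017/50000000000,
    66439884631/472500000000, 58139715821/4725000000000,
    199055266259/129937500000000⟩,
  ⟨39/10, 83/20, 19865551/100000000000,
    3145798371173/19818086400000, 175552582201/10569646080000,
    1761697688999/697596641280000⟩,
  ⟨83/20, 22/5, 1452519/20000000000,
    383430100021/2477260800000, 507896717053/31708938240000,
    1689359660159/697596641280000⟩,
  ⟨22/5, 47/10, 311781/12500000000,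
    745729052727/4480000000000, 1764936393741/89600000000000,
    17202555063531/4928000000000000⟩,
  ⟨47/10, 51/10, 15924569/2500000000000,
    700160119/3691406250, 1062865813/36914062500,
    3470659876/507568359375⟩,
  ⟨51/10, 28/5, 8972493/10000000000000,
    1176835801/4838400000, 113297099/2064384000,
    6468210359/340623360000⟩]

theorem qcells_check : qcells.all QCell.check = true := by decide +kernel

/-- The whole check of one certificate. -/
def certCheck (k a b c q : ℚ) (ts : List ℚ) (R tR : ℚ) : Bool :=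
  decide (0 ≤ a) && decide (0 ≤ b) && decide (0 ≤ c) &&
    goodQ k a b c (qcells.zip ts) 0 R tR &&
      decide (q ≤ 2 - k + valQ k a b c (qcells.zip ts) R tR)

theorem isDual_of_check {k a b c q R tR : ℚ} {ts : List ℚ}
    (h : certCheck k a b c q ts R tR = true) : ∃ L, IsDual q k a b c L := by
  simp only [certCheck, Bool.and_eq_true, decide_eq_true_eq] at h
  obtain ⟨⟨⟨⟨ha, hb⟩, hc⟩, hg⟩, hv⟩ := h
  have hcells : ∀ p ∈ qcells.zip ts, p.1.check = true := fun p hp =>
    List.all_eq_true.1 qcells_check _ (List.of_mem_zip (a := p.1) (b := p.2) hp).1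
  have hG := goodQ_good _ 0 R tR hcells hg
  rw [Rat.cast_zero] at hG
  refine ⟨_, isDual_cells (Rat.cast_nonneg.2 ha) (Rat.cast_nonneg.2 hb) (Rat.cast_nonneg.2 hc)
    _ _ _ hG ?_⟩
  rw [← valQ_cast]
  exact_mod_cast hv

end Vale.Agent.P150.Fast.ThreeB
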