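import Vale.Agent.P150.Fast.ThreeB.Weights

/-!
P150 (3b): from a certificate to a bound for an arbitrary coupled bounded variable.
-/

open MeasureTheory ProbabilityTheory Set

namespace Vale.Agent.P150.Fast.ThreeB

theorem integrable_bdd {Ω : Type*} [MeasurableSpace Ω] {P : Measure Ω} [IsFiniteMeasure P]
    {y : Ω → ℝ} (hy : Measurable y) {M : ℝ} (hM : ∀ ω, |y ω| ≤ M) (j : ℕ) :
    Integrable (fun ω => y ω ^ j) P :=
  Integrable.of_bound (hy.pow_const j).aestronglyMeasurable (M ^ j) (ae_of_all _ fun ω => by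
    rw [Real.norm_eq_abs, abs_pow]; exact pow_le_pow_left₀ (abs_nonneg _) (hM ω) j)

/-- The objective of (3b). -/
noncomputable def Phi {Ω : Type*} [MeasurableSpace Ω] (P : Measure Ω) (g y : Ω → ℝ)
    (a b c : ℝ) : ℝ :=
  2 - 2 * (∫ ω, g ω * y ω ∂P) + a * (∫ ω, y ω ^ 4 ∂P) + b * (∫ ω, y ω ^ 6 ∂P) +
    c * (∫ ω, y ω ^ 8 ∂P)

variable {Ω : Type*} [MeasurableSpace Ω] {P : Measure Ω} [IsProbabilityMeasure P] {g y : Ω → ℝ}

/-- Hypotheses: standard Gaussian `g`, bounded `y` of unit second moment. -/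
structure Coupled (P : Measure Ω) (g y : Ω → ℝ) : Prop where
  hg : Measurable g
  law : P.map g = gaussianReal 0 1
  hy : Measurable y
  bdd : ∃ M, ∀ ω, |y ω| ≤ M
  unit : ∫ ω, y ω ^ 2 ∂P = 1

theorem Coupled.integrable_comp (H : Coupled P g y) {f : ℝ → ℝ}
    (hf : Integrable f (gaussianReal 0 1)) : Integrable (fun ω => f (g ω)) P :=
  ((H.law.symm ▸ hf : Integrable f (P.map g))).comp_measurable H.hg

theorem Coupled.integral_comp (H : Coupled P g y) {f : ℝ → ℝ}
    (hf : Integrable f (gaussianReal 0 1)) :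
    ∫ ω, f (g ω) ∂P = ∫ x, f x ∂gaussianReal 0 1 := by
  rw [← H.law]
  exact (integral_map H.hg.aemeasurable (H.law.symm ▸ hf.aestronglyMeasurable)).symm

theorem Coupled.integrable_mul (H : Coupled P g y) : Integrable (fun ω => g ω * y ω) P := by
  obtain ⟨M, hM⟩ := H.bdd
  have hg1 : Integrable g P :=
    H.integrable_comp (f := fun x => x) ((memLp_id_gaussianReal 1).integrable le_rfl)
  exact hg1.mul_bdd H.hy.aestronglyMeasurable (ae_of_all _ fun ω => by simpa using hM ω)

/-- A pointwise minorant `L` gives a lower bound on the objective. -/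
theorem Coupled.of_minorant (H : Coupled P g y) (k a b c : ℝ) {L : ℝ → ℝ}
    (hL : Integrable L (gaussianReal 0 1))
    (hle : ∀ x z, L x ≤ hP k a b c z - 2 * x * z) :
    2 - k + ∫ x, L x ∂gaussianReal 0 1 ≤ Phi P g y a b c := by
  obtain ⟨M, hM⟩ := H.bdd
  have i2 := (integrable_bdd (P := P) H.hy hM 2).const_mul k
  have i4 := (integrable_bdd (P := P) H.hy hM 4).const_mul a
  have i6 := (integrable_bdd (P := P) H.hy hM 6).const_mul b
  have i8 := (integrable_bdd (P := P) H.hy hM 8).const_mul c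
  have i24 := i2.fun_add i4
  have i246 := i24.fun_add i6
  have i := i246.fun_add i8
  have hm := H.integrable_mul.const_mul 2
  have h := integral_mono (H.integrable_comp hL) (i.sub' hm) fun ω => by
    have := hle (g ω) (y ω)
    simp only [hP] at this
    linarith
  rw [H.integral_comp hL, integral_sub i hm, integral_add i246 i8, integral_add i24 i6,
    integral_add i2 i4, integral_const_mul, integral_const_mul, integral_const_mul,
    integral_const_mul, integral_const_mul, H.unit] at h
  unfold Phi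
  linarith

/-- A dual certificate: a pointwise minorant of the Lagrangian with a large mean. -/
structure IsDual (q k a b c : ℝ) (L : ℝ → ℝ) : Prop where
  int : Integrable L (gaussianReal 0 1)
  le : ∀ x z, L x ≤ hP k a b c z - 2 * x * z
  value : q ≤ 2 - k + ∫ x, L x ∂gaussianReal 0 1

/-- A checked list of cells is a dual certificate. -/
theorem isDual_cells {k a b c q : ℝ} (ha : 0 ≤ a) (hb : 0 ≤ b) (hc : 0 ≤ c)
    (l : List (Cell × ℝ)) (R tR : ℝ) (hG : Good k a b c l 0 R tR)
    (hv : q ≤ 2 - k + val k a b c l R tR) :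
    IsDual q k a b c fun x => low k a b c l R tR |x| := by
  obtain ⟨hi, hval⟩ := low_integral ha hb hc l 0 R tR hG
  exact ⟨hi, fun x z =>
    ((low_spec ha hb hc l 0 R tR hG |x| (abs_nonneg x)).2 (abs_nonneg x) |z| (abs_nonneg z)).trans
      (half_line z x), by linarith⟩

/-- A finite family of functions serving as dual certificates on `(lo, hi]`, with bounded
weights; by a law of large numbers for these finitely many functions it also gives (3b) for
empirical laws, uniformly in `q`. -/
def Covers (lo hi : ℝ) : Prop :=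
  ∃ (ι : Type) (_ : Fintype ι) (F : ι → ℝ → ℝ) (W : ℝ),
    (∀ i, Integrable (F i) (gaussianReal 0 1)) ∧ ∀ q, lo < q → q ≤ hi →
      ∃ (k : ℝ) (w : ι → ℝ), (∀ i, |w i| ≤ W) ∧
        IsDual q k (q / 3) (q ^ 2 / 5) (q ^ 3 / 7) fun x => ∑ i, w i * F i x

theorem Covers.union {lo mid hi : ℝ} (h1 : Covers lo mid) (h2 : Covers mid hi) :
    Covers lo hi := by
  obtain ⟨ι, _, F, W, hF, h1⟩ := h1
  obtain ⟨κ, _, G, V, hG, h2⟩ := h2
  refine ⟨ι ⊕ κ, inferInstance, Sum.elim F G, max (max W V) 0,
    fun i => by cases i <;> simp [hF, hG], fun q hl hh => ?_⟩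
  rcases le_or_gt q mid with h | h
  · obtain ⟨k, w, hw, hd⟩ := h1 q hl h
    refine ⟨k, Sum.elim w fun _ => 0, fun i => ?_, ?_⟩
    · cases i with
      | inl i => exact (hw i).trans ((le_max_left _ _).trans (le_max_left _ _))
      | inr i => simp
    · simpa [Fintype.sum_sum_type] using hd
  · obtain ⟨k, w, hw, hd⟩ := h2 q h hh
    refine ⟨k, Sum.elim (fun _ => 0) w, fun i => ?_, ?_⟩
    · cases i with
      | inl i => simp
      | inr i => exact (hw i).trans ((le_max_right _ _).trans (le_max_left _ _))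
    · simpa [Fintype.sum_sum_type] using hd

/-- Certificates at both ends (with `q²`, `q³` replaced by their tangents at `q0`) cover the
interval, by concavity. -/
theorem covers_of_ends {qa qb q0 ka kb : ℝ} {La Lb : ℝ → ℝ} (hab : qa < qb) (h0 : 0 ≤ q0)
    (hqa : 0 ≤ qa)
    (hA : IsDual qa ka (qa / 3) ((2 * q0 * qa - q0 * q0) / 5)
      (q0 * q0 * (3 * qa - 2 * q0) / 7) La)
    (hB : IsDual qb kb (qb / 3) ((2 * q0 * qb - q0 * q0) / 5)
      (q0 * q0 * (3 * qb - 2 * q0) / 7) Lb) :
    Covers qa qb := by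
  refine ⟨Bool, inferInstance, fun i => bif i then La else Lb, 1,
    fun i => by cases i <;> simp [hA.int, hB.int], fun q hl hh => ?_⟩
  set s := (qb - q) / (qb - qa) with hs
  have hd : 0 < qb - qa := by linarith
  have hs0 : 0 ≤ s := div_nonneg (by linarith) hd.le
  have hs1 : s ≤ 1 := by rw [hs, div_le_one hd]; linarith
  have hq : q = s * qa + (1 - s) * qb := by rw [hs]; field_simp; ring
  refine ⟨s * ka + (1 - s) * kb, fun i => bif i then s else 1 - s, fun i => ?_, ?_⟩
  · cases i <;> simp only [cond_false, cond_true] <;> rw [abs_of_nonneg (by linarith)] <;> linarith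
  simp only [Fintype.sum_bool, cond_true, cond_false]
  refine ⟨(hA.int.const_mul s).add (hB.int.const_mul _), fun x z => ?_, ?_⟩
  · have e1 := mul_le_mul_of_nonneg_left (hA.le x z) hs0
    have e2 := mul_le_mul_of_nonneg_left (hB.le x z) (sub_nonneg.2 hs1)
    have hb2 : (2 * q0 * q - q0 * q0) / 5 ≤ q ^ 2 / 5 := by
      have := sq_nonneg (q - q0); linarith
    have hc2 : q0 * q0 * (3 * q - 2 * q0) / 7 ≤ q ^ 3 / 7 := by
      have : 0 ≤ (q - q0) ^ 2 * (q + 2 * q0) := mul_nonneg (sq_nonneg _) (by linarith)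
      linarith
    have f6 := mul_le_mul_of_nonneg_right hb2 (Even.pow_nonneg (by decide : Even 6) z)
    have f8 := mul_le_mul_of_nonneg_right hc2 (Even.pow_nonneg (by decide : Even 8) z)
    rw [hq] at f6 f8 ⊢
    simp only [hP] at e1 e2 ⊢
    linarith
  · have e1 := mul_le_mul_of_nonneg_left hA.value hs0
    have e2 := mul_le_mul_of_nonneg_left hB.value (sub_nonneg.2 hs1)
    rw [integral_add (hA.int.const_mul s) (hB.int.const_mul _), integral_const_mul,
      integral_const_mul]
    linarith

end Vale.Agent.P150.Fast.ThreeB
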