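import Mathlib

/-!
P150 (3b): tangent bounds for the Lagrangian `k y² + a y⁴ + b y⁶ + c y⁸ - 2 g y`.
-/

namespace Vale.Agent.P150.Fast.ThreeB

/-- The radial part of the Lagrangian. -/
def hP (k a b c t : ℝ) : ℝ := k * t ^ 2 + a * t ^ 4 + b * t ^ 6 + c * t ^ 8

/-- Half of its derivative. -/
def gP (k a b c t : ℝ) : ℝ := k * t + 2 * a * t ^ 3 + 3 * b * t ^ 5 + 4 * c * t ^ 7

/-- A lower bound of the divided second difference on the half line. -/
def bP (k a b c t : ℝ) : ℝ := k + 3 * a * t ^ 2 + 5 * b * t ^ 4 + 7 * c * t ^ 6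

/-- The quadratic minorant attached to the point `t`. -/
noncomputable def qP (k a b c t x : ℝ) : ℝ :=
  hP k a b c t - 2 * x * t - (x - gP k a b c t) ^ 2 / bP k a b c t

theorem qP_le {k a b c t y : ℝ} (ha : 0 ≤ a) (hb : 0 ≤ b) (hc : 0 ≤ c) (ht : 0 ≤ t)
    (hy : 0 ≤ y) (hB : 0 < bP k a b c t) (x : ℝ) :
    qP k a b c t x ≤ hP k a b c y - 2 * x * y := by
  have key : hP k a b c y - hP k a b c t - 2 * gP k a b c t * (y - t) -
      bP k a b c t * (y - t) ^ 2 =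
      (y - t) ^ 2 * (a * (y ^ 2 + 2 * t * y) +
        b * (y ^ 4 + 2 * t * y ^ 3 + 3 * t ^ 2 * y ^ 2 + 4 * t ^ 3 * y) +
        c * (y ^ 6 + 2 * t * y ^ 5 + 3 * t ^ 2 * y ^ 4 + 4 * t ^ 3 * y ^ 3 + 5 * t ^ 4 * y ^ 2 +
          6 * t ^ 5 * y)) := by
    unfold hP gP bP; ring
  have hpos : 0 ≤ (y - t) ^ 2 * (a * (y ^ 2 + 2 * t * y) +
        b * (y ^ 4 + 2 * t * y ^ 3 + 3 * t ^ 2 * y ^ 2 + 4 * t ^ 3 * y) +
        c * (y ^ 6 + 2 * t * y ^ 5 + 3 * t ^ 2 * y ^ 4 + 4 * t ^ 3 * y ^ 3 + 5 * t ^ 4 * y ^ 2 +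
          6 * t ^ 5 * y)) := by positivity
  unfold qP
  set B := bP k a b c t with hBd
  set G := gP k a b c t
  have e : B * (y - t) ^ 2 - 2 * (x - G) * (y - t) + (x - G) ^ 2 / B =
      (B * (y - t) - (x - G)) ^ 2 / B := by field_simp; ring
  have hsq : 0 ≤ (B * (y - t) - (x - G)) ^ 2 / B := by positivity
  linarith

theorem qP_nonpos {k a b c t : ℝ} (ha : 0 ≤ a) (hb : 0 ≤ b) (hc : 0 ≤ c) (ht : 0 ≤ t)
    (hB : 0 < bP k a b c t) (x : ℝ) : qP k a b c t x ≤ 0 := by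
  have h := qP_le ha hb hc ht le_rfl hB x
  simpa [hP] using h

/-- Beyond `R` the minimum is at least quadratic in `x`, hence above a high even power. -/
theorem tail_le {k a b c t y x R : ℝ} (ha : 0 ≤ a) (hb : 0 ≤ b) (hc : 0 ≤ c) (ht : 0 ≤ t)
    (hy : 0 ≤ y) (hB : 0 < bP k a b c t) (hR : 0 < R) (hx : R ≤ x) :
    qP k a b c t R * (x / R) ^ 28 ≤ hP k a b c y - 2 * x * y := by
  have h0 := qP_nonpos ha hb hc ht hB R
  have hs : 1 ≤ x / R := by rw [le_div_iff₀ hR]; linarith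
  set s := x / R
  have hsp : 0 < s := by linarith
  have hz := qP_le ha hb hc ht (div_nonneg hy hsp.le) hB R
  have hyz : y = s * (y / s) := by field_simp
  have hxR : x = s * R := by simp only [s]; field_simp
  set z := y / s
  have h1 : qP k a b c t R * s ^ 28 ≤ qP k a b c t R * s ^ 2 := by
    have : s ^ 2 ≤ s ^ 28 := pow_le_pow_right₀ hs (by norm_num)
    nlinarith
  have h2 : s ^ 2 * (hP k a b c z - 2 * R * z) ≤ hP k a b c y - 2 * x * y := by
    rw [hyz, hxR]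
    have e4 : s ^ 2 ≤ s ^ 4 := pow_le_pow_right₀ hs (by norm_num)
    have e6 : s ^ 2 ≤ s ^ 6 := pow_le_pow_right₀ hs (by norm_num)
    have e8 : s ^ 2 ≤ s ^ 8 := pow_le_pow_right₀ hs (by norm_num)
    have f4 : 0 ≤ (s ^ 4 - s ^ 2) * (a * z ^ 4) := mul_nonneg (by linarith) (by positivity)
    have f6 : 0 ≤ (s ^ 6 - s ^ 2) * (b * z ^ 6) := mul_nonneg (by linarith) (by positivity)
    have f8 : 0 ≤ (s ^ 8 - s ^ 2) * (c * z ^ 8) := mul_nonneg (by linarith) (by positivity)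
    unfold hP
    nlinarith
  have h3 := mul_le_mul_of_nonneg_left hz (sq_nonneg s)
  linarith

/-- Reduction to the half line. -/
theorem half_line {k a b c : ℝ} (y g : ℝ) :
    hP k a b c |y| - 2 * |g| * |y| ≤ hP k a b c y - 2 * g * y := by
  have e : hP k a b c |y| = hP k a b c y := by
    simp only [hP, sq_abs, Even.pow_abs (by decide : Even 4),
      Even.pow_abs (by decide : Even 6), Even.pow_abs (by decide : Even 8)]
  have h : g * y ≤ |g| * |y| := by rw [← abs_mul]; exact le_abs_self _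
  linarith

end Vale.Agent.P150.Fast.ThreeB
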