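import Vale.Agent.P150.Fast.ThreeB.Core

/-!
P150 (3b): closed form certificate for small `q`.
-/

open MeasureTheory ProbabilityTheory Finset

namespace Vale.Agent.P150.Fast.ThreeB

/-- `∫ x^(2 i)` against the standard Gaussian law. -/
noncomputable def gmom : ℕ → ℝ
  | 0 => 1
  | i + 1 => (2 * i + 1) * gmom i

theorem integral_gmom : ∀ i : ℕ, ∫ x : ℝ, x ^ (2 * i) ∂gaussianReal 0 1 = gmom i
  | 0 => by simp [gmom]
  | i + 1 => by
    rw [show 2 * (i + 1) = 2 * i + 2 by ring, P150.moment_step, integral_gmom i, gmom]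
    push_cast
    ring

theorem integral_even_poly (n : ℕ) (C : ℕ → ℝ) :
    Integrable (fun x : ℝ => ∑ i ∈ range n, C i * x ^ (2 * i)) (gaussianReal 0 1) ∧
      ∫ x, (∑ i ∈ range n, C i * x ^ (2 * i)) ∂gaussianReal 0 1 = ∑ i ∈ range n, C i * gmom i := by
  have h : ∀ i : ℕ, Integrable (fun x : ℝ => C i * x ^ (2 * i)) (gaussianReal 0 1) := fun i =>
    (P150.integrable_pow_gauss _).const_mul _
  refine ⟨integrable_finsetSum _ fun i _ => h i, ?_⟩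
  rw [integral_finsetSum _ fun i _ => h i]
  simp only [integral_const_mul, integral_gmom]

/-- Coefficients of the minorant `-(γ²)/k - 3a z⁴ - 5b (w x)⁶ - 7c (r x)⁸`,
`z = u x - v x³`, `γ = x + A3 x³ + A5 x⁵ + A7 x⁷ + A9 x⁹`. -/
noncomputable def sCoef (k a b c u v w r A3 A5 A7 A9 : ℝ) : ℕ → ℝ
  | 1 => -(1) / k 
  | 2 => -(2 * A3) / k - 3 * a * u ^ 4
  | 3 => -(2 * A5 + A3 * A3) / k + 12 * a * u ^ 3 * v - 5 * b * w ^ 6
  | 4 => -(2 * A7 + 2 * A3 * A5) / k - 18 * a * u ^ 2 * v ^ 2 - 7 * c * r ^ 8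
  | 5 => -(2 * A9 + 2 * A3 * A7 + A5 * A5) / k + 12 * a * u * v ^ 3
  | 6 => -(2 * A3 * A9 + 2 * A5 * A7) / k - 3 * a * v ^ 4
  | 7 => -(2 * A5 * A9 + A7 * A7) / k 
  | 8 => -(2 * A7 * A9) / k 
  | 9 => -(A9 * A9) / k 
  | _ => 0

theorem small_poly_le {k a b c u v w r A3 A5 A7 A9 : ℝ} (hk : 0 < k) (ha : 0 ≤ a) (hb : 0 ≤ b)
    (hc : 0 ≤ c) (h3 : A3 = -(2 * a * u ^ 3))
    (h5 : A5 = 6 * a * u ^ 2 * v - 3 * b * w ^ 5) (h7 : A7 = -(6 * a * u * v ^ 2) - 4 * c * r ^ 7)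
    (h9 : A9 = 2 * a * v ^ 3) (x y : ℝ) :
    ∑ i ∈ range 10, sCoef k a b c u v w r A3 A5 A7 A9 i * x ^ (2 * i) ≤
      hP k a b c y - 2 * x * y := by
  have t4 : ∀ s z : ℝ, 4 * z ^ 3 * s - 3 * z ^ 4 ≤ s ^ 4 := fun s z => by
    have : 0 ≤ (s - z) ^ 2 * ((s + z) ^ 2 + 2 * z ^ 2) := by positivity
    linarith [show (s - z) ^ 2 * ((s + z) ^ 2 + 2 * z ^ 2) = s ^ 4 - (4 * z ^ 3 * s - 3 * z ^ 4)
      by ring]
  have t6 : ∀ s z : ℝ, 6 * z ^ 5 * s - 5 * z ^ 6 ≤ s ^ 6 := fun s z => by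
    have : 0 ≤ (s - z) ^ 2 * ((s + z) ^ 2 * (s ^ 2 + 2 * z ^ 2) + 3 * z ^ 4) := by positivity
    linarith [show (s - z) ^ 2 * ((s + z) ^ 2 * (s ^ 2 + 2 * z ^ 2) + 3 * z ^ 4) =
      s ^ 6 - (6 * z ^ 5 * s - 5 * z ^ 6) by ring]
  have t8 : ∀ s z : ℝ, 8 * z ^ 7 * s - 7 * z ^ 8 ≤ s ^ 8 := fun s z => by
    have : 0 ≤ (s - z) ^ 2 *
        ((s + z) ^ 2 * (s ^ 4 + 2 * z ^ 2 * s ^ 2 + 3 * z ^ 4) + 4 * z ^ 6) := by positivity
    linarith [show (s - z) ^ 2 *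
        ((s + z) ^ 2 * (s ^ 4 + 2 * z ^ 2 * s ^ 2 + 3 * z ^ 4) + 4 * z ^ 6) =
      s ^ 8 - (8 * z ^ 7 * s - 7 * z ^ 8) by ring]
  have p4 := mul_le_mul_of_nonneg_left (t4 y (u * x - v * x ^ 3)) ha
  have p6 := mul_le_mul_of_nonneg_left (t6 y (w * x)) hb
  have p8 := mul_le_mul_of_nonneg_left (t8 y (r * x)) hc
  set γ := x + A3 * x ^ 3 + A5 * x ^ 5 + A7 * x ^ 7 + A9 * x ^ 9 with hγ
  have hquad : -γ ^ 2 / k ≤ k * y ^ 2 - 2 * γ * y := by
    have h : 0 ≤ (k * y - γ) ^ 2 / k := by positivity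
    linarith [show (k * y - γ) ^ 2 / k = k * y ^ 2 - 2 * γ * y - (-γ ^ 2 / k) by field_simp; ring]
  have e : ∑ i ∈ range 10, sCoef k a b c u v w r A3 A5 A7 A9 i * x ^ (2 * i) =
      -γ ^ 2 / k - 3 * a * (u * x - v * x ^ 3) ^ 4 - 5 * b * (w * x) ^ 6 - 7 * c * (r * x) ^ 8 := by
    simp only [Finset.sum_range_succ, Finset.sum_range_zero, sCoef, hγ]
    ring
  rw [e]
  subst h3 h5 h7 h9
  simp only [hP]
  linear_combination hquad + p4 + p6 + p8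

theorem small_value {q : ℝ} (hq : 0 < q) (hq1 : q ≤ 3 / 100) :
    q ≤ 1 + 2 * q + ∑ i ∈ range 10, sCoef (1 - 2 * q) (q / 3) (q ^ 2 / 5) (q ^ 3 / 7)
      (1 + 8 / 5 * q) (14 / 25 * q) (1 - 2 * q) (1 - 3 * q)
      (-(2 * (q / 3) * (1 + 8 / 5 * q) ^ 3))
      (6 * (q / 3) * (1 + 8 / 5 * q) ^ 2 * (14 / 25 * q) - 3 * (q ^ 2 / 5) * (1 - 2 * q) ^ 5)
      (-(6 * (q / 3) * (1 + 8 / 5 * q) * (14 / 25 * q) ^ 2) - 4 * (q ^ 3 / 7) * (1 - 3 * q) ^ 7)
      (2 * (q / 3) * (14 / 25 * q) ^ 3) i * gmom i := by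
  have hk : (0 : ℝ) < 1 - 2 * q := by linarith
  have key : 0 ≤ q ^ 2 * ((1/3 : ℝ) * q ^ 0 + (-307/125 : ℝ) * q ^ 1 + (-1048519/3125 : ℝ) * q ^ 2 + (1962600688/234375 : ℝ) * q ^ 3 + (-74150317084/546875 : ℝ) * q ^ 4 + (858644697354/390625 : ℝ) * q ^ 5 + (-985344038785316/29296875 : ℝ) * q ^ 6 + (1227710439108/3125 : ℝ) * q ^ 7 + (-10345219634208/3125 : ℝ) * q ^ 8 + (318469556880951/15625 : ℝ) * q ^ 9 + (-58529863836198/625 : ℝ) * q ^ 10 + (1425066999757776/4375 : ℝ) * q ^ 11 + (-539142179090832/625 : ℝ) * q ^ 12 + (1733468897952 : ℝ) * q ^ 13 + (-2605773793392 : ℝ) * q ^ 14 + (2844793752768 : ℝ) * q ^ 15 + (-2133969449040 : ℝ) * q ^ 16 + (984908976480 : ℝ) * q ^ 17 + (-1477363464720/7 : ℝ) * q ^ 18) := by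
    refine mul_nonneg (sq_nonneg q) ?_
    have n1 : (-921/12500 : ℝ) ≤ (-307/125 : ℝ) * q ^ 1 :=
      mul_le_mul_of_nonpos_left (pow_le_pow_left₀ hq.le hq1 1) (by norm_num) |>.trans' (by norm_num)
    have n4 : (-1501543920951/13671875000000 : ℝ) ≤ (-74150317084/546875 : ℝ) * q ^ 4 :=
      mul_le_mul_of_nonpos_left (pow_le_pow_left₀ hq.le hq1 4) (by norm_num) |>.trans' (by norm_num)
    have n5 : 0 ≤ (858644697354/390625 : ℝ) * q ^ 5 := by positivity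
    have n6 : (-59859650356207947/2441406250000000000 : ℝ) ≤ (-985344038785316/29296875 : ℝ) * q ^ 6 :=
      mul_le_mul_of_nonpos_left (pow_le_pow_left₀ hq.le hq1 6) (by norm_num) |>.trans' (by norm_num)
    have n7 : 0 ≤ (1227710439108/3125 : ℝ) * q ^ 7 := by positivity
    have n8 : (-2121093313126209/976562500000000000 : ℝ) ≤ (-10345219634208/3125 : ℝ) * q ^ 8 :=
      mul_le_mul_of_nonpos_left (pow_le_pow_left₀ hq.le hq1 8) (by norm_num) |>.trans' (by norm_num)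
    have n9 : 0 ≤ (318469556880951/15625 : ℝ) * q ^ 9 := by positivity
    have n10 : (-1728064964831827851/31250000000000000000000 : ℝ) ≤ (-58529863836198/625 : ℝ) * q ^ 10 :=
      mul_le_mul_of_nonpos_left (pow_le_pow_left₀ hq.le hq1 10) (by norm_num) |>.trans' (by norm_num)
    have n11 : 0 ≤ (1425066999757776/4375 : ℝ) * q ^ 11 := by positivity
    have n12 : (-17907641174888178057/39062500000000000000000000 : ℝ) ≤ (-539142179090832/625 : ℝ) * q ^ 12 :=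
      mul_le_mul_of_nonpos_left (pow_le_pow_left₀ hq.le hq1 12) (by norm_num) |>.trans' (by norm_num)
    have n13 : 0 ≤ (1733468897952 : ℝ) * q ^ 13 := by positivity
    have n14 : (-778958454675396303/625000000000000000000000000 : ℝ) ≤ (-2605773793392 : ℝ) * q ^ 14 :=
      mul_le_mul_of_nonpos_left (pow_le_pow_left₀ hq.le hq1 14) (by norm_num) |>.trans' (by norm_num)
    have n15 : 0 ≤ (2844793752768 : ℝ) * q ^ 15 := by positivity
    have n16 : (-1148254843691857473/1250000000000000000000000000000 : ℝ) ≤ (-2133969449040 : ℝ) * q ^ 16 :=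
      mul_le_mul_of_nonpos_left (pow_le_pow_left₀ hq.le hq1 16) (by norm_num) |>.trans' (by norm_num)
    have n17 : 0 ≤ (984908976480 : ℝ) * q ^ 17 := by positivity
    have n18 : (-7154510949156958101/87500000000000000000000000000000000 : ℝ) ≤ (-1477363464720/7 : ℝ) * q ^ 18 :=
      mul_le_mul_of_nonpos_left (pow_le_pow_left₀ hq.le hq1 18) (by norm_num) |>.trans' (by norm_num)
    have n23 : (-81/1000 : ℝ) ≤ (-1048519/3125 : ℝ) * q ^ 2 + (1962600688/234375 : ℝ) * q ^ 3 := by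
      nlinarith [mul_nonneg (show 0 ≤ q + 2671 / 200000 by linarith) (sq_nonneg (q - 2671 / 100000))]
    linarith
  simp only [Finset.sum_range_succ, Finset.sum_range_zero, sCoef, gmom]
  rw [← sub_nonneg, ← mul_nonneg_iff_of_pos_left hk]
  refine key.trans_eq ?_
  have hk1 : (1 : ℝ) - q * 2 ≠ 0 := by linarith
  field_simp [hk1]
  ring

/-- Small `q` is covered by the even monomials up to degree 18. -/
theorem covers_small : Covers 0 (3 / 100) := by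
  set w : ℝ → ℕ → ℝ := fun q => sCoef (1 - 2 * q) (q / 3) (q ^ 2 / 5) (q ^ 3 / 7)
      (1 + 8 / 5 * q) (14 / 25 * q) (1 - 2 * q) (1 - 3 * q)
      (-(2 * (q / 3) * (1 + 8 / 5 * q) ^ 3))
      (6 * (q / 3) * (1 + 8 / 5 * q) ^ 2 * (14 / 25 * q) - 3 * (q ^ 2 / 5) * (1 - 2 * q) ^ 5)
      (-(6 * (q / 3) * (1 + 8 / 5 * q) * (14 / 25 * q) ^ 2) - 4 * (q ^ 3 / 7) * (1 - 3 * q) ^ 7)
      (2 * (q / 3) * (14 / 25 * q) ^ 3) with hw
  have hc : ∀ i : Fin 10, ContinuousOn (fun q => w q i) (Set.Icc 0 (3 / 100)) := by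
    intro i
    have hk : ∀ q ∈ Set.Icc (0 : ℝ) (3 / 100), 1 - 2 * q ≠ 0 := fun q hq => by
      linarith [hq.2]
    fin_cases i <;> simp only [hw, sCoef] <;> fun_prop (disch := assumption)
  choose M hM using fun i => isCompact_Icc.exists_bound_of_continuousOn (hc i)
  refine ⟨Fin 10, inferInstance, fun i x => x ^ (2 * (i : ℕ)), ∑ i, |M i|,
    fun i => P150.integrable_pow_gauss _, fun q hq hq1 => ⟨1 - 2 * q, fun i => w q i,
      fun i => ?_, ?_⟩⟩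
  · exact ((hM i q ⟨hq.le, hq1⟩).trans (le_abs_self _)).trans
      (Finset.single_le_sum (fun j _ => abs_nonneg (M j)) (Finset.mem_univ i))
  · obtain ⟨hi, he⟩ := integral_even_poly 10 (w q)
    have e : (fun x : ℝ => ∑ i : Fin 10, w q i * x ^ (2 * (i : ℕ))) =
        fun x => ∑ i ∈ range 10, w q i * x ^ (2 * i) :=
      funext fun x => Fin.sum_univ_eq_sum_range (fun i => w q i * x ^ (2 * i)) 10
    rw [e]
    refine ⟨hi, fun x z => small_poly_le (by linarith) (by positivity) (by positivity)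
      (by positivity) rfl rfl rfl rfl x z, ?_⟩
    rw [he]
    have := small_value hq hq1
    simp only [hw]
    linarith

end Vale.Agent.P150.Fast.ThreeB
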