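import Vale.Agent.P150.Scalar
import Vale.Agent.P150.Fast.ThreeB.Pointwise

/-!
P150 (3b): Gaussian integrals of piecewise quadratic minorants, bounded by rationals.
-/

open MeasureTheory ProbabilityTheory Set

namespace Vale.Agent.P150.Fast.ThreeB

/-- A quartic upper bound of `exp (-s)` for `s ≥ 0`. -/
noncomputable def e4 (s : ℝ) : ℝ := 1 - s + s ^ 2 / 2 - s ^ 3 / 6 + s ^ 4 / 24

theorem exp_neg_le_e4 {s : ℝ} (hs : 0 ≤ s) : Real.exp (-s) ≤ e4 s := by
  have hd : ∀ u, HasDerivAt (fun u => Real.exp u * e4 u) (Real.exp u * (u ^ 4 / 24)) u := by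
    intro u
    have h1 : HasDerivAt e4 (-1 + u - u ^ 2 / 2 + u ^ 3 / 6) u := by
      have := ((((hasDerivAt_const u (1 : ℝ)).sub (hasDerivAt_id u)).add
        ((hasDerivAt_pow 2 u).div_const 2)).sub ((hasDerivAt_pow 3 u).div_const 6)).add
          ((hasDerivAt_pow 4 u).div_const 24)
      refine this.congr_deriv ?_
      norm_num
      ring
    refine ((Real.hasDerivAt_exp u).mul h1).congr_deriv ?_
    unfold e4
    ring
  have hm : Monotone fun u => Real.exp u * e4 u :=
    monotone_of_hasDerivAt_nonneg hd fun u => by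
      have : (0 : ℝ) ≤ u ^ 4 := by positivity
      positivity
  have h := hm hs
  simp [e4] at h
  rw [Real.exp_neg, ← one_div, div_le_iff₀ (Real.exp_pos _)]
  simpa [e4, mul_comm] using h

/-- The standard Gaussian density. -/
noncomputable def dens (x : ℝ) : ℝ := Real.exp (-(x ^ 2 / 2)) / Real.sqrt (2 * Real.pi)

theorem dens_nonneg (x : ℝ) : 0 ≤ dens x := by unfold dens; positivity

theorem dens_eq (x : ℝ) : gaussianPDFReal 0 1 x = dens x := by
  simp [gaussianPDFReal, dens, div_eq_inv_mul]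

/-- Coefficients of `e4 (c u + u² / 2)` in `u`. -/
noncomputable def eC (c : ℝ) : ℕ → ℝ
  | 0 => 1
  | 1 => -c
  | 2 => -1 / 2 + c ^ 2 / 2
  | 3 => c / 2 - c ^ 3 / 6
  | 4 => 1 / 8 - c ^ 2 / 4 + c ^ 4 / 24
  | 5 => -c / 8 + c ^ 3 / 12
  | 6 => -1 / 48 + c ^ 2 / 16
  | 7 => c / 48
  | 8 => 1 / 384
  | _ => 0

theorem e4_expand (c u : ℝ) :
    e4 (c * u + u ^ 2 / 2) = ∑ i ∈ Finset.range 9, eC c i * u ^ i := by
  simp [Finset.sum_range_succ, eC, e4]
  ring

/-- `∫₀ʰ uʳ e4 (c u + u² / 2) du`. -/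
noncomputable def eInt (c h : ℝ) (r : ℕ) : ℝ :=
  ∑ i ∈ Finset.range 9, eC c i * (h ^ (i + r + 1) / (i + r + 1))

theorem integral_quad_e4 (c h B0 B1 B2 : ℝ) :
    ∫ u in (0 : ℝ)..h, (B0 + B1 * u + B2 * u ^ 2) * e4 (c * u + u ^ 2 / 2) =
      B0 * eInt c h 0 + B1 * eInt c h 1 + B2 * eInt c h 2 := by
  have e : ∀ u : ℝ, (B0 + B1 * u + B2 * u ^ 2) * e4 (c * u + u ^ 2 / 2) =
      ∑ i ∈ Finset.range 9, (B0 * eC c i * u ^ (i + 0) + B1 * eC c i * u ^ (i + 1) +
        B2 * eC c i * u ^ (i + 2)) := by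
    intro u
    rw [e4_expand, Finset.mul_sum]
    refine Finset.sum_congr rfl fun i _ => ?_
    ring
  simp only [e]
  rw [intervalIntegral.integral_finsetSum fun i _ =>
    (Continuous.intervalIntegrable (by fun_prop) _ _)]
  simp only [eInt, Finset.mul_sum, ← Finset.sum_add_distrib]
  refine Finset.sum_congr rfl fun i _ => ?_
  rw [intervalIntegral.integral_add (Continuous.intervalIntegrable (by fun_prop) _ _)
      (Continuous.intervalIntegrable (by fun_prop) _ _),
    intervalIntegral.integral_add (Continuous.intervalIntegrable (by fun_prop) _ _)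
      (Continuous.intervalIntegrable (by fun_prop) _ _)]
  simp only [intervalIntegral.integral_const_mul, integral_pow]
  rw [zero_pow (by omega), zero_pow (by omega), zero_pow (by omega)]
  push_cast
  ring

/-- A cell `[c, d)` with a density bound and its three integrals. -/
structure Cell where
  c : ℝ
  d : ℝ
  K : ℝ
  s0 : ℝ
  s1 : ℝ
  s2 : ℝ

/-- The stored numbers are correct. -/
structure Cell.Valid (C : Cell) : Prop where
  c0 : 0 ≤ C.c
  cd : C.c ≤ C.d
  hK : dens C.c ≤ C.K
  h0 : eInt C.c (C.d - C.c) 0 = C.s0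
  h1 : eInt C.c (C.d - C.c) 1 = C.s1
  h2 : eInt C.c (C.d - C.c) 2 = C.s2

variable (k a b c : ℝ)

/-- Lower bound of the integral of `qP` over a cell, both signs. -/
noncomputable def cellVal (C : Cell) (t : ℝ) : ℝ :=
  let A0 := hP k a b c t - gP k a b c t ^ 2 / bP k a b c t
  let A1 := -2 * t + 2 * gP k a b c t / bP k a b c t
  let A2 := -1 / bP k a b c t
  2 * C.K * ((A0 + A1 * C.c + A2 * C.c ^ 2) * C.s0 + (A1 + 2 * A2 * C.c) * C.s1 + A2 * C.s2)

/-- The minorant restricted to a cell, as a function of `x ≥ 0`. -/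
noncomputable def cellFun (C : Cell) (t : ℝ) : ℝ → ℝ :=
  (Ico C.c C.d).indicator (qP k a b c t)

variable {k a b c}

theorem cell_integral {C : Cell} (hC : C.Valid) {t : ℝ} (ha : 0 ≤ a) (hb : 0 ≤ b) (hc : 0 ≤ c)
    (ht : 0 ≤ t) (hB : 0 < bP k a b c t) :
    cellVal k a b c C t ≤ ∫ x, cellFun k a b c C t |x| ∂gaussianReal 0 1 := by
  rw [integral_gaussianReal_eq_integral_smul one_ne_zero]
  have e1 : (fun x => gaussianPDFReal 0 1 x • cellFun k a b c C t |x|) =
      fun x => (fun u => dens u * cellFun k a b c C t u) |x| := by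
    funext x
    simp [dens_eq, dens, sq_abs]
  rw [e1, show ∫ x, (fun u => dens u * cellFun k a b c C t u) |x| =
    2 * ∫ x in Ioi (0 : ℝ), dens x * cellFun k a b c C t x from
      integral_comp_abs (f := fun u => dens u * cellFun k a b c C t u)]
  have e2 : (fun u => dens u * cellFun k a b c C t u) =
      (Ico C.c C.d).indicator (fun u => dens u * qP k a b c t u) := by
    funext u
    simp only [cellFun, Set.indicator_apply]
    split <;> simp
  rw [e2, setIntegral_indicator measurableSet_Ico]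
  have e3 : (Ioi (0 : ℝ) ∩ Ico C.c C.d : Set ℝ) =ᵐ[volume] Ioc C.c C.d := by
    rw [MeasureTheory.ae_eq_set]
    constructor
    · refine measure_mono_null (fun x hx => ?_) (Real.volume_singleton (a := C.c))
      rcases hx with ⟨⟨-, h1, h2⟩, h3⟩
      simp only [Set.mem_Ioc, not_and, not_le] at h3
      rcases h1.lt_or_eq with h | h
      · exact absurd (h3 h) (by linarith)
      · exact h.symm
    · refine measure_mono_null (fun x hx => ?_) (Real.volume_singleton (a := C.d))
      rcases hx with ⟨⟨h1, h2⟩, h3⟩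
      simp only [Set.mem_inter_iff, Set.mem_Ioi, Set.mem_Ico, not_and, not_lt] at h3
      exact le_antisymm h2 (h3 (lt_of_le_of_lt hC.c0 h1) h1.le)
  rw [setIntegral_congr_set e3, ← intervalIntegral.integral_of_le hC.cd]
  have hub : ∀ x ∈ Icc C.c C.d, C.K * e4 (C.c * (x - C.c) + (x - C.c) ^ 2 / 2) * qP k a b c t x ≤
      dens x * qP k a b c t x := by
    intro x hx
    have hu : 0 ≤ x - C.c := by linarith [hx.1]
    have hs : 0 ≤ C.c * (x - C.c) + (x - C.c) ^ 2 / 2 := by
      have := mul_nonneg hC.c0 hu; positivity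
    have h1 : dens x = dens C.c * Real.exp (-(C.c * (x - C.c) + (x - C.c) ^ 2 / 2)) := by
      unfold dens
      rw [div_mul_eq_mul_div, ← Real.exp_add]
      congr 2
      ring
    have h2 : dens x ≤ C.K * e4 (C.c * (x - C.c) + (x - C.c) ^ 2 / 2) := by
      rw [h1]
      exact mul_le_mul hC.hK (exp_neg_le_e4 hs) (Real.exp_pos _).le
        ((dens_nonneg _).trans hC.hK)
    exact mul_le_mul_of_nonpos_right h2 (qP_nonpos ha hb hc ht hB x)
  have hd : Continuous dens := by unfold dens; fun_prop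
  have hq : Continuous (qP k a b c t) := by unfold qP; fun_prop
  have he : Continuous e4 := by unfold e4; fun_prop
  have hmono := intervalIntegral.integral_mono_on (μ := volume) hC.cd
    (Continuous.intervalIntegrable (by fun_prop) _ _)
    (Continuous.intervalIntegrable (hd.mul hq) _ _) hub
  simp only [Pi.mul_apply] at hmono
  have e5 : ∫ x in C.c..C.d,
      C.K * e4 (C.c * (x - C.c) + (x - C.c) ^ 2 / 2) * qP k a b c t x =
      cellVal k a b c C t / 2 := by
    set A0 := hP k a b c t - gP k a b c t ^ 2 / bP k a b c t with hA0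
    set A1 := -2 * t + 2 * gP k a b c t / bP k a b c t with hA1
    set A2 := -1 / bP k a b c t with hA2
    have eq : ∀ x, C.K * e4 (C.c * (x - C.c) + (x - C.c) ^ 2 / 2) * qP k a b c t x =
        (fun u => C.K * (((A0 + A1 * C.c + A2 * C.c ^ 2) + (A1 + 2 * A2 * C.c) * u + A2 * u ^ 2) *
          e4 (C.c * u + u ^ 2 / 2))) (x - C.c) := by
      intro x
      simp only [hA0, hA1, hA2, qP]
      ring
    simp only [eq]
    rw [intervalIntegral.integral_comp_sub_right
      (fun u => C.K * (((A0 + A1 * C.c + A2 * C.c ^ 2) + (A1 + 2 * A2 * C.c) * u + A2 * u ^ 2) *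
          e4 (C.c * u + u ^ 2 / 2))) C.c, sub_self, intervalIntegral.integral_const_mul,
      integral_quad_e4, hC.h0, hC.h1, hC.h2]
    simp only [cellVal, hA0, hA1, hA2]
    ring
  linarith

variable (k a b c)

/-- The whole minorant as a function of `x ≥ 0`, with tail point `(R, tR)`. -/
noncomputable def low : List (Cell × ℝ) → ℝ → ℝ → ℝ → ℝ
  | [], R, tR, x => (Ici R).indicator (fun x => qP k a b c tR R * (x / R) ^ 28) x
  | p :: l, R, tR, x => cellFun k a b c p.1 p.2 x + low l R tR x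

/-- Its certified integral. -/
noncomputable def val : List (Cell × ℝ) → ℝ → ℝ → ℝ
  | [], R, tR => qP k a b c tR R * (213458046676875 / R ^ 28)
  | p :: l, R, tR => cellVal k a b c p.1 p.2 + val l R tR

/-- The cells are valid, adjacent from `c0` up to `R`, with admissible tangency points. -/
def Good : List (Cell × ℝ) → ℝ → ℝ → ℝ → Prop
  | [], c0, R, tR => c0 = R ∧ 0 < R ∧ 0 ≤ tR ∧ 0 < bP k a b c tR
  | p :: l, c0, R, tR =>
      p.1.c = c0 ∧ p.1.Valid ∧ (0 ≤ p.2 ∧ 0 < bP k a b c p.2) ∧ Good l p.1.d R tR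

variable {k a b c}

theorem low_spec (ha : 0 ≤ a) (hb : 0 ≤ b) (hc : 0 ≤ c) : ∀ (l : List (Cell × ℝ)) (c0 R tR : ℝ),
    Good k a b c l c0 R tR → ∀ x, 0 ≤ x →
      (x < c0 → low k a b c l R tR x = 0) ∧
      (c0 ≤ x → ∀ y, 0 ≤ y → low k a b c l R tR x ≤ hP k a b c y - 2 * x * y) := by
  intro l
  induction l with
  | nil =>
    intro c0 R tR h x hx
    obtain ⟨rfl, hR, htR, hBR⟩ := h
    refine ⟨fun hlt => ?_, fun hle y hy => ?_⟩
    · simp [low, Set.indicator_of_notMem, hlt]
    · simp only [low]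
      rw [Set.indicator_of_mem (Set.mem_Ici.2 hle)]
      exact tail_le ha hb hc htR hy hBR hR hle
  | cons p l ih =>
    intro c0 R tR h x hx
    obtain ⟨rfl, hV, ⟨ht, hB⟩, hG⟩ := h
    obtain ⟨ih0, ih1⟩ := ih _ R tR hG x hx
    refine ⟨fun hlt => ?_, fun hle y hy => ?_⟩
    · have h2 : x < p.1.d := lt_of_lt_of_le hlt hV.cd
      simp [low, cellFun, ih0 h2, hlt]
    · rcases lt_or_ge x p.1.d with h2 | h2
      · simp only [low, cellFun, ih0 h2, add_zero]
        rw [Set.indicator_of_mem (show x ∈ Ico p.1.c p.1.d from ⟨hle, h2⟩)]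
        exact qP_le ha hb hc ht hy hB x
      · have h3 : x ∉ Ico p.1.c p.1.d := fun h => absurd h.2 (not_lt.2 h2)
        simp only [low, cellFun, Set.indicator_of_notMem h3, zero_add]
        exact ih1 h2 y hy

theorem integrable_cellFun (C : Cell) (t : ℝ) :
    Integrable (fun x => cellFun k a b c C t |x|) (gaussianReal 0 1) := by
  have hq : Continuous (qP k a b c t) := by unfold qP; fun_prop
  obtain ⟨M, hM⟩ := isCompact_Icc.exists_bound_of_continuousOn
    (hq.continuousOn (s := Icc C.c C.d))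
  refine Integrable.of_bound ?_ (max M 0) (ae_of_all _ fun x => ?_)
  · exact ((hq.measurable.indicator measurableSet_Ico).comp measurable_abs).aestronglyMeasurable
  · unfold cellFun
    by_cases hx : |x| ∈ Ico C.c C.d
    · rw [Set.indicator_of_mem hx]
      exact (hM _ ⟨hx.1, hx.2.le⟩).trans (le_max_left _ _)
    · rw [Set.indicator_of_notMem hx]
      simp

theorem moment28 : ∫ x : ℝ, x ^ 28 ∂gaussianReal 0 1 = 213458046676875 := by
  have h0 : ∫ x : ℝ, x ^ 0 ∂gaussianReal 0 1 = 1 := by simp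
  iterate 14 rw [P150.moment_step]
  rw [h0]
  norm_num

theorem low_integral (ha : 0 ≤ a) (hb : 0 ≤ b) (hc : 0 ≤ c) : ∀ (l : List (Cell × ℝ)) (c0 R tR : ℝ),
    Good k a b c l c0 R tR →
      Integrable (fun x => low k a b c l R tR |x|) (gaussianReal 0 1) ∧
      val k a b c l R tR ≤ ∫ x, low k a b c l R tR |x| ∂gaussianReal 0 1 := by
  intro l
  induction l with
  | nil =>
    intro c0 R tR h
    obtain ⟨rfl, hR, htR, hBR⟩ := h
    have h0 := qP_nonpos ha hb hc htR hBR c0
    have hi : Integrable (fun x : ℝ => qP k a b c tR c0 * (x / c0) ^ 28) (gaussianReal 0 1) := by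
      simp only [div_pow]
      exact ((P150.integrable_pow_gauss 28).div_const _).const_mul _
    have e : ∀ x : ℝ, (fun x => qP k a b c tR c0 * (x / c0) ^ 28) |x| =
        qP k a b c tR c0 * (x / c0) ^ 28 := by
      intro x
      simp only [div_pow, Even.pow_abs (by decide : Even 28)]
    have hm : Measurable fun x : ℝ => low k a b c [] c0 tR |x| :=
      ((by fun_prop : Measurable fun x => qP k a b c tR c0 * (x / c0) ^ 28).indicator
        measurableSet_Ici).comp measurable_abs
    have hle : ∀ x, qP k a b c tR c0 * (x / c0) ^ 28 ≤ low k a b c [] c0 tR |x| ∧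
        low k a b c [] c0 tR |x| ≤ 0 := by
      intro x
      have hn : qP k a b c tR c0 * (x / c0) ^ 28 ≤ 0 :=
        mul_nonpos_of_nonpos_of_nonneg h0 (Even.pow_nonneg (by decide) _)
      simp only [low, Set.indicator_apply]
      split
      · have e' : qP k a b c tR c0 * (|x| / c0) ^ 28 = qP k a b c tR c0 * (x / c0) ^ 28 := e x
        exact ⟨e'.ge, e'.le.trans hn⟩
      · exact ⟨hn, le_rfl⟩
    have hint : Integrable (fun x => low k a b c [] c0 tR |x|) (gaussianReal 0 1) :=
      hi.norm.mono' hm.aestronglyMeasurable (ae_of_all _ fun x => by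
        rw [Real.norm_eq_abs, Real.norm_eq_abs, abs_of_nonpos (hle x).2,
          abs_of_nonpos ((hle x).1.trans (hle x).2)]
        linarith [(hle x).1])
    refine ⟨hint, le_trans (le_of_eq ?_) (integral_mono hi hint fun x => (hle x).1)⟩
    simp only [val, div_pow]
    rw [integral_const_mul, integral_div, moment28]
  | cons p l ih =>
    intro c0 R tR h
    obtain ⟨rfl, hV, ⟨ht, hB⟩, hG⟩ := h
    obtain ⟨i1, i2⟩ := ih _ R tR hG
    refine ⟨(integrable_cellFun p.1 p.2).add i1, ?_⟩
    simp only [low, val]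
    rw [integral_add (integrable_cellFun p.1 p.2) i1]
    exact add_le_add (cell_integral hV ha hb hc ht hB) i2

end Vale.Agent.P150.Fast.ThreeB
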